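import Vale.Agent.P232.Gap.BuildDefs
import Vale.Agent.P232.Rigid.SideGradient

/-!
# P232 gap: elementary facts on admissible functions and on the candidate near the gap
-/

open MeasureTheory Set Filter
open scoped NNReal Real Topology

noncomputable section

namespace Vale.Agent.P232.Gap

open Rigid (planeInt gradPerp)

/-! ## The candidate -/

theorem jrel_eq {W : ℝ} (h0 : 1 / 4 ≤ W) (h1 : W ≤ 51 / 100) :
    jrel W = min (Real.sqrt (π * W)) 1 := by
  set m := min W (1 - W) with hm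
  have hm4 : 1 / 4 ≤ m := le_min h0 (by linarith)
  have hm0 : 0 < m := by linarith
  have hball : 2 * Real.sqrt (π * m) ≤ (36 * π) ^ ((1 : ℝ) / 3) * m ^ ((2 : ℝ) / 3) := by
    refine le_of_pow_le_pow_left₀ (n := 6) (by norm_num) (by positivity) ?_
    have e1 : (2 * Real.sqrt (π * m)) ^ 6 = 64 * (π * m) ^ 3 := by
      have := Real.sq_sqrt (show 0 ≤ π * m by positivity)
      calc (2 * Real.sqrt (π * m)) ^ 6 = 64 * (Real.sqrt (π * m) ^ 2) ^ 3 := by ring
        _ = _ := by rw [this]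
    have e2 : ((36 * π) ^ ((1 : ℝ) / 3) * m ^ ((2 : ℝ) / 3)) ^ 6 = (36 * π) ^ 2 * m ^ 4 := by
      rw [mul_pow, ← Real.rpow_natCast, ← Real.rpow_mul (by positivity),
        ← Real.rpow_natCast (m ^ _), ← Real.rpow_mul hm0.le]
      norm_num
    rw [e1, e2]
    have : 64 * π ≤ 1296 * m := by linarith [Real.pi_lt_d2]
    calc 64 * (π * m) ^ 3 = 64 * π * (π ^ 2 * m ^ 3) := by ring
      _ ≤ 1296 * m * (π ^ 2 * m ^ 3) := mul_le_mul_of_nonneg_right this (by positivity)
      _ = _ := by ring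
  have hc : candidate W = min (2 * Real.sqrt (π * m)) 2 := by
    rw [candidate, ← hm, min_eq_right hball]
  rw [jrel, hc]
  rcases le_total W (1 - W) with h | h
  · rw [hm, min_eq_left h, ← min_div_div_right (by norm_num : (0 : ℝ) ≤ 2)]
    simp
  · have hm1 : 1 ≤ π * m := by
      have : 49 / 100 ≤ m := le_min (by linarith) (by linarith)
      nlinarith [Real.pi_gt_three]
    have hW1 : 1 ≤ π * W := by nlinarith [Real.pi_gt_three]
    rw [min_eq_right (by linarith [Real.one_le_sqrt.2 hm1]), div_self two_ne_zero,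
      min_eq_right (Real.one_le_sqrt.2 hW1)]

/-- The tube value lies above its tangent up to a quadratic term. -/
theorem tangent_quad {V W : ℝ} (hV : 1 / 4 ≤ V) (hW : 0 ≤ W) :
    Real.sqrt (π * V) + Real.sqrt π / (2 * Real.sqrt V) * (W - V) - 16 * (W - V) ^ 2 ≤
      Real.sqrt (π * W) := by
  set a := Real.sqrt (π * V) with ha
  set b := Real.sqrt (π * W) with hb
  have hV0 : 0 < V := by linarith
  have ha2 : a ^ 2 = π * V := Real.sq_sqrt (by positivity)
  have hb2 : b ^ 2 = π * W := Real.sq_sqrt (by positivity)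
  have ha0 : 4 / 5 ≤ a := Real.le_sqrt_of_sq_le (by nlinarith [Real.pi_gt_three])
  have hb0 : 0 ≤ b := Real.sqrt_nonneg _
  have hH : Real.sqrt π / (2 * Real.sqrt V) = π / (2 * a) := by
    rw [ha, Real.sqrt_mul Real.pi_pos.le]
    have := Real.sqrt_pos.2 hV0
    have := Real.sqrt_pos.2 Real.pi_pos
    field_simp
    rw [Real.sq_sqrt Real.pi_pos.le]
  rw [hH]
  have hsq : (b - a) ^ 2 ≤ 32 * a * (W - V) ^ 2 := by
    have h1 : (b - a) * (b + a) = π * (W - V) := by nlinarith
    have h2 : (b - a) ^ 2 * a ^ 2 ≤ ((b - a) * (b + a)) ^ 2 := by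
      rw [mul_pow]
      exact mul_le_mul_of_nonneg_left (by nlinarith) (sq_nonneg _)
    rw [h1, mul_pow] at h2
    have h3 : π ^ 2 ≤ 10 := by nlinarith [Real.pi_lt_d2, Real.pi_pos]
    have ha3 : 64 / 125 ≤ a ^ 3 := by
      calc (64 : ℝ) / 125 = (4 / 5) ^ 3 := by norm_num
        _ ≤ a ^ 3 := by gcongr
    have h4 : (b - a) ^ 2 * a ^ 2 ≤ 32 * a * (W - V) ^ 2 * a ^ 2 := by
      refine h2.trans ((mul_le_mul_of_nonneg_right h3 (sq_nonneg _)).trans ?_)
      calc 10 * (W - V) ^ 2 ≤ 32 * a ^ 3 * (W - V) ^ 2 :=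
            mul_le_mul_of_nonneg_right (by linarith) (sq_nonneg _)
        _ = _ := by ring
    exact le_of_mul_le_mul_right h4 (by positivity)
  have key : b - a = π / (2 * a) * (W - V) - (b - a) ^ 2 / (2 * a) := by
    field_simp
    nlinarith
  have : (b - a) ^ 2 / (2 * a) ≤ 16 * (W - V) ^ 2 := by
    rw [div_le_iff₀ (by linarith)]
    linarith
  linarith

theorem jrel_lipschitz {V W : ℝ} (hV : V ∈ Icc (1 / 4 : ℝ) (51 / 100))
    (hW : W ∈ Icc (1 / 4 : ℝ) (51 / 100)) : jrel V - 2 * |W - V| ≤ jrel W := by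
  rw [jrel_eq hV.1 hV.2, jrel_eq hW.1 hW.2]
  have h : Real.sqrt (π * V) - 2 * |W - V| ≤ Real.sqrt (π * W) := by
    have h1 := Real.sq_sqrt (show 0 ≤ π * V by nlinarith [hV.1, Real.pi_pos])
    have h2 := Real.sq_sqrt (show 0 ≤ π * W by nlinarith [hW.1, Real.pi_pos])
    have hV' : 4 / 5 ≤ Real.sqrt (π * V) :=
      Real.le_sqrt_of_sq_le (by nlinarith [hV.1, Real.pi_gt_three])
    have hW' : 4 / 5 ≤ Real.sqrt (π * W) :=
      Real.le_sqrt_of_sq_le (by nlinarith [hW.1, Real.pi_gt_three])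
    rcases le_total (Real.sqrt (π * V)) (Real.sqrt (π * W)) with h | h
    · linarith [abs_nonneg (W - V)]
    · have : (Real.sqrt (π * V) - Real.sqrt (π * W)) *
          (Real.sqrt (π * V) + Real.sqrt (π * W)) ≤ π * |W - V| := by
        calc _ = π * (V - W) := by linear_combination h1 - h2
          _ ≤ _ := mul_le_mul_of_nonneg_left (by
            rw [abs_sub_comm]; exact le_abs_self _) Real.pi_pos.le
      nlinarith [Real.pi_lt_d2, abs_nonneg (W - V)]
  rcases le_total 1 (Real.sqrt (π * W)) with h' | h'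
  · rw [min_eq_right h']
    linarith [min_le_right (Real.sqrt (π * V)) 1, abs_nonneg (W - V)]
  · rw [min_eq_left h']
    linarith [min_le_left (Real.sqrt (π * V)) 1]

/-- The two one-sided slopes of the candidate at `V`. -/
theorem jrel_lower {V : ℝ} (hV : V ∈ Icc (13 / 50 : ℝ) (1 / 2)) :
    ∃ c₀ c₁ r : ℝ, 0 ≤ c₀ ∧ c₀ ≤ c₁ ∧ c₁ ≤ 2 ∧ 0 < r ∧ (∀ H ∈ Icc c₀ c₁, IsSlope V H) ∧
      ∀ W, |W - V| < r →
        jrel V + min (c₀ * (W - V)) (c₁ * (W - V)) - 16 * (W - V) ^ 2 ≤ jrel W := by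
  have h4 : 1 / 4 ≤ V := le_trans (by norm_num) hV.1
  have hV1 : V ≤ 51 / 100 := le_trans hV.2 (by norm_num)
  have hmem : ∀ W, |W - V| < 1 / 100 → W ∈ Icc (1 / 4 : ℝ) (51 / 100) := fun W h => by
    rw [abs_lt] at h
    exact ⟨by linarith [hV.1], by linarith [hV.2]⟩
  have hπ : 0 < π := Real.pi_pos
  have sq1 : ∀ W : ℝ, 1 / π ≤ W → 1 ≤ Real.sqrt (π * W) := fun W h => by
    refine Real.one_le_sqrt.2 ?_
    calc (1 : ℝ) = π * (1 / π) := by field_simp
      _ ≤ π * W := mul_le_mul_of_nonneg_left h hπ.le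
  have sq2 : ∀ W : ℝ, W ≤ 1 / π → Real.sqrt (π * W) ≤ 1 := fun W h => by
    refine Real.sqrt_le_one.2 ?_
    calc π * W ≤ π * (1 / π) := mul_le_mul_of_nonneg_left h hπ.le
      _ = 1 := by field_simp
  rcases lt_trichotomy V (1 / π) with h | h | h
  · set H := Real.sqrt π / (2 * Real.sqrt V)
    have hH0 : 0 ≤ H := by positivity
    have hH2 : H ≤ 2 := by
      have h1 : 1 / 2 ≤ Real.sqrt V := Real.le_sqrt_of_sq_le (by linarith)
      have h2 : Real.sqrt π ≤ 2 := Real.sqrt_le_iff.2 ⟨by norm_num, by linarith [Real.pi_lt_four]⟩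
      rw [div_le_iff₀ (by positivity)]
      linarith
    refine ⟨H, H, min (1 / 100) (1 / π - V), hH0, le_rfl, hH2,
      lt_min (by norm_num) (sub_pos.2 h), fun H' hH' => Or.inl ⟨h, le_antisymm hH'.2 hH'.1⟩,
      fun W hW => ?_⟩
    obtain ⟨hW1, hW2⟩ := lt_min_iff.1 hW
    have hm := hmem W hW1
    have hWπ : W ≤ 1 / π := by linarith [(abs_lt.1 hW2).2]
    rw [jrel_eq h4 hV1, jrel_eq hm.1 hm.2, min_eq_left (sq2 V h.le), min_eq_left (sq2 W hWπ),
      min_self]
    exact tangent_quad h4 (by linarith [hm.1])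
  · refine ⟨0, π / 2, 1 / 100, le_rfl, by positivity, by linarith [Real.pi_lt_four], by norm_num,
      fun H hH => Or.inr (Or.inr ⟨h, hH⟩), fun W hW => ?_⟩
    have hm := hmem W hW
    rw [jrel_eq h4 hV1, jrel_eq hm.1 hm.2, min_eq_right (sq1 V h.ge)]
    rcases le_total (1 / π) W with hWπ | hWπ
    · rw [min_eq_right (sq1 W hWπ), zero_mul]
      nlinarith [min_le_left 0 (π / 2 * (W - V))]
    · rw [min_eq_left (sq2 W hWπ)]
      have hq := tangent_quad h4 (show 0 ≤ W by linarith [hm.1])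
      have hH : Real.sqrt π / (2 * Real.sqrt V) = π / 2 := by
        have e : Real.sqrt V * Real.sqrt π = 1 := by
          rw [← Real.sqrt_mul (by linarith : (0 : ℝ) ≤ V), h]
          field_simp
          exact Real.sqrt_one
        have := Real.sqrt_pos.2 (show 0 < V by linarith)
        rw [div_eq_div_iff (by positivity) two_ne_zero]
        calc Real.sqrt π * 2 = 2 * Real.sqrt π * (Real.sqrt V * Real.sqrt π) := by rw [e]; ring
          _ = Real.sqrt π ^ 2 * (2 * Real.sqrt V) := by ring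
          _ = _ := by rw [Real.sq_sqrt hπ.le]
      have hV' : Real.sqrt (π * V) = 1 :=
        le_antisymm (sq2 V h.le) (sq1 V h.ge)
      rw [hH, hV'] at hq
      linarith [min_le_right (0 * (W - V)) (π / 2 * (W - V))]
  · refine ⟨0, 0, min (1 / 100) (V - 1 / π), le_rfl, le_rfl, by norm_num,
      lt_min (by norm_num) (sub_pos.2 h), fun H hH => Or.inr (Or.inl ⟨h, le_antisymm hH.2 hH.1⟩),
      fun W hW => ?_⟩
    obtain ⟨hW1, hW2⟩ := lt_min_iff.1 hW
    have hm := hmem W hW1
    have hWπ : 1 / π ≤ W := by linarith [(abs_lt.1 hW2).1]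
    rw [jrel_eq h4 hV1, jrel_eq hm.1 hm.2, min_eq_right (sq1 V h.le), min_eq_right (sq1 W hWπ),
      zero_mul, min_self]
    nlinarith

/-! ## Admissible functions -/

namespace Adm

variable {w : R3 → ℝ}

theorem continuous (hw : Adm w) : Continuous w := by
  obtain ⟨L, hL⟩ := hw.lipschitz
  exact hL.continuous

theorem abs_le_one (hw : Adm w) (x : R3) : |w x| ≤ 1 := Rigid.abs_le_one_of_mem (hw.mem x)

theorem continuous_areaAt (hw : Adm w) (d : Fin 3) : Continuous (areaAt w d) := by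
  haveI : IsFiniteMeasure ((volume : Measure R2).restrict square) :=
    isFiniteMeasure_restrict.2 (by simp [volume_square])
  refine continuous_of_dominated (F := fun (t : ℝ) (y : R2) => w (facePoint d t y))
    (bound := fun _ => (1 : ℝ))
    (fun t => (hw.continuous.comp (continuous_facePoint' d t)).aestronglyMeasurable) (fun t => ?_)
    (integrable_const _) (ae_of_all _ fun y => ?_)
  · exact ae_of_all _ fun y => (Real.norm_eq_abs _).trans_le (hw.abs_le_one _)
  · exact hw.continuous.comp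
      ((continuous_facePoint d).comp (continuous_id.prodMk continuous_const))

theorem areaAt_mem (hw : Adm w) (d : Fin 3) (t : ℝ) : areaAt w d t ∈ Icc (0 : ℝ) 1 :=
  Rigid.planeInt_mem hw.mem d t

theorem integral_areaAt (hw : Adm w) (d : Fin 3) :
    ∫ t in (0 : ℝ)..1, areaAt w d t = vol w := by
  rw [vol, ← Rigid.setIntegral_cell_eq_box w]
  exact (Rigid.integral_cell_eq_planeInt hw.continuous.measurable hw.abs_le_one d).symm

theorem defect_nonneg (hw : Adm w) : 0 ≤ defect w :=
  setIntegral_nonneg measurableSet_box fun x _ => (Rigid.mul_one_sub_mem (hw.mem x)).1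

end Adm

theorem stress_density (f : R3 → ℝ) (d : Fin 3) (x : R3) :
    0 ≤ gradPerp d f x ^ 2 / gradNorm f x ∧ gradPerp d f x ^ 2 / gradNorm f x ≤ gradNorm f x := by
  refine ⟨div_nonneg (sq_nonneg _) (gradNorm_nonneg f x), ?_⟩
  rcases (gradNorm_nonneg f x).eq_or_lt with h | h
  · rw [← h, div_zero]
  · rw [div_le_iff₀ h, ← sq]
    refine pow_le_pow_left₀ (Rigid.gradPerp_nonneg d f x) ?_ 2
    rw [Rigid.gradNorm_eq d]
    exact Real.le_sqrt_of_sq_le (le_add_of_nonneg_right (sq_nonneg _))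

theorem sum_stress_density (f : R3 → ℝ) (x : R3) :
    ∑ d, gradPerp d f x ^ 2 / gradNorm f x = 2 * gradNorm f x := by
  have h : ∀ d, gradPerp d f x ^ 2 = gradNorm f x ^ 2 - pd d f x ^ 2 := fun d => by
    have := congrArg (fun r : ℝ => r ^ 2) (Rigid.gradNorm_eq d f x)
    simp only [Real.sq_sqrt (by positivity : 0 ≤ gradPerp d f x ^ 2 + pd d f x ^ 2)] at this
    linarith
  rw [← Finset.sum_div, Finset.sum_congr rfl fun d _ => h d, Finset.sum_sub_distrib]
  have : ∑ d, pd d f x ^ 2 = gradNorm f x ^ 2 :=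
    (Real.sq_sqrt (Finset.sum_nonneg fun _ _ => sq_nonneg _)).symm
  rw [this, Finset.sum_const, Finset.card_univ, Fintype.card_fin, nsmul_eq_mul]
  push_cast
  rcases (gradNorm_nonneg f x).eq_or_lt with h0 | h0
  · rw [← h0]; simp
  · field_simp; ring

namespace Adm

variable {w : R3 → ℝ}

theorem gradNorm_bound (hw : Adm w) : ∃ K : ℝ, ∀ x, |gradNorm w x| ≤ K := by
  obtain ⟨L, hL⟩ := hw.lipschitz
  exact ⟨3 * L, fun x => by
    rw [abs_of_nonneg (gradNorm_nonneg w x)]; exact gradNorm_le hL x⟩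

theorem measurable_stress (d : Fin 3) (f : R3 → ℝ) :
    Measurable fun x => gradPerp d f x ^ 2 / gradNorm f x :=
  ((Rigid.measurable_gradPerp d f).pow_const 2).div (measurable_gradNorm f)

theorem intervalIntegrable_energyAt (hw : Adm w) (d : Fin 3) (a b : ℝ) :
    IntervalIntegrable (energyAt w d) volume a b := by
  obtain ⟨K, hK⟩ := hw.gradNorm_bound
  exact Rigid.intervalIntegrable_planeInt (measurable_gradNorm w) hK d a b

theorem integral_energyAt (hw : Adm w) (d : Fin 3) :
    ∫ t in (0 : ℝ)..1, energyAt w d t = energy w := by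
  obtain ⟨K, hK⟩ := hw.gradNorm_bound
  rw [energy, ← Rigid.setIntegral_cell_eq_box]
  exact (Rigid.integral_cell_eq_planeInt (measurable_gradNorm w) hK d).symm

theorem stress_bound (hw : Adm w) : ∃ K : ℝ, ∀ d x, |gradPerp d w x ^ 2 / gradNorm w x| ≤ K := by
  obtain ⟨K, hK⟩ := hw.gradNorm_bound
  refine ⟨K, fun d x => ?_⟩
  rw [abs_of_nonneg (stress_density w d x).1]
  exact ((stress_density w d x).2.trans (le_abs_self _)).trans (hK x)

theorem intervalIntegrable_stressAt (hw : Adm w) (d : Fin 3) (a b : ℝ) :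
    IntervalIntegrable (stressAt w d) volume a b := by
  obtain ⟨K, hK⟩ := hw.stress_bound
  exact Rigid.intervalIntegrable_planeInt (measurable_stress d w) (hK d) d a b

theorem integral_stressAt (hw : Adm w) (d : Fin 3) :
    ∫ t in (0 : ℝ)..1, stressAt w d t = ∫ x in box, gradPerp d w x ^ 2 / gradNorm w x := by
  obtain ⟨K, hK⟩ := hw.stress_bound
  rw [← Rigid.setIntegral_cell_eq_box]
  exact (Rigid.integral_cell_eq_planeInt (measurable_stress d w) (hK d) d).symm

theorem integral_stressAt_mem (hw : Adm w) (d : Fin 3) :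
    0 ≤ ∫ t in (0 : ℝ)..1, stressAt w d t ∧ ∫ t in (0 : ℝ)..1, stressAt w d t ≤ energy w := by
  obtain ⟨K, hK⟩ := hw.stress_bound
  obtain ⟨L, hL⟩ := hw.lipschitz
  rw [hw.integral_stressAt d]
  exact ⟨setIntegral_nonneg measurableSet_box fun x _ => (stress_density w d x).1,
    setIntegral_mono_on (integrableOn_box (measurable_stress d w) K fun x _ => hK d x)
      (integrableOn_box (measurable_gradNorm w) (3 * L) fun x _ => by
      rw [abs_of_nonneg (gradNorm_nonneg w x)]; exact gradNorm_le hL x) measurableSet_box fun x _ => (stress_density w d x).2⟩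

theorem sum_integral_stressAt (hw : Adm w) :
    ∑ d, ∫ t in (0 : ℝ)..1, stressAt w d t = 2 * energy w := by
  obtain ⟨K, hK⟩ := hw.stress_bound
  simp only [hw.integral_stressAt]
  rw [energy, ← integral_finsetSum _ fun d _ =>
    integrableOn_box (measurable_stress d w) K fun x _ => hK d x, ← integral_const_mul]
  exact setIntegral_congr_fun measurableSet_box fun x _ => sum_stress_density w x

end Adm

end Vale.Agent.P232.Gap
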