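import Vale.Agent.P232.Gap.Build.Linear

/-!
# P232 gap: the first integrals along a minimising sequence

The stress density converges in `L¹` to `H A + C`, and the cuts at both ends cost what they should.
-/

open MeasureTheory Set Filter
open scoped NNReal Real Topology

noncomputable section

namespace Vale.Agent.P232.Gap

theorem integral_abs_le_of_test {f : ℝ → ℝ} (hf : IntervalIntegrable f volume 0 1)
    (hf0 : ∫ t in (0 : ℝ)..1, f t = 0) {δ : ℝ} (hδ : 0 < δ)
    (h : ∀ g : ℝ → ℝ, Continuous g → (∀ t, |g t| ≤ 1) → (∫ t in (0 : ℝ)..1, g t) = 0 →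
      |∫ t in (0 : ℝ)..1, g t * f t| ≤ δ) :
    ∫ t in (0 : ℝ)..1, |f t| ≤ 5 * δ := by
  obtain ⟨F, -, hF, hFc, hFi⟩ :=
    (((intervalIntegrable_iff_integrableOn_Ioc_of_le zero_le_one).1 hf).integrable_indicator
      measurableSet_Ioc).exists_hasCompactSupport_integral_sub_le hδ
  have hclose : ∫ t in (0 : ℝ)..1, |f t - F t| ≤ δ := by
    rw [intervalIntegral.integral_of_le zero_le_one]
    have e : ∫ t in Ioc (0 : ℝ) 1, |f t - F t| =
        ∫ t in Ioc (0 : ℝ) 1, ‖(Ioc (0 : ℝ) 1).indicator f t - F t‖ :=
      setIntegral_congr_fun measurableSet_Ioc fun t ht => by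
        simp [Real.norm_eq_abs, ht]
    rw [e]
    refine le_trans (setIntegral_le_integral ?_ (ae_of_all _ fun t => norm_nonneg _)) hF
    exact ((((intervalIntegrable_iff_integrableOn_Ioc_of_le zero_le_one).1 hf).integrable_indicator
      measurableSet_Ioc).sub hFi).norm
  set g : ℝ → ℝ := fun t => max (-1) (min 1 (F t / δ))
  have hg : Continuous g := continuous_const.max (continuous_const.min (hFc.div_const _))
  have hg1 : ∀ t, |g t| ≤ 1 := fun t =>
    abs_le.2 ⟨le_max_left _ _, max_le (by norm_num) (min_le_left _ _)⟩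
  set cst := ∫ t in (0 : ℝ)..1, g t
  have hcst : |cst| ≤ 1 := by
    have h' := intervalIntegral.norm_integral_le_of_norm_le_const (a := (0 : ℝ)) (b := 1) (C := 1)
      (f := g) fun t _ => (Real.norm_eq_abs _).trans_le (hg1 t)
    rwa [Real.norm_eq_abs, sub_zero, abs_one, mul_one] at h'
  have hgc : Continuous fun t => (g t - cst) / 2 := (hg.sub continuous_const).div_const _
  have hgf : |∫ t in (0 : ℝ)..1, g t * f t| ≤ 2 * δ := by
    have h' := h (fun t => (g t - cst) / 2) hgc (fun t => by
      rw [abs_div, abs_two, div_le_one two_pos]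
      exact (abs_sub _ _).trans (by linarith [hg1 t])) (by
      rw [intervalIntegral.integral_div, intervalIntegral.integral_sub (hg.intervalIntegrable _ _)
        intervalIntegrable_const]
      simp [cst])
    have e : ∫ t in (0 : ℝ)..1, (g t - cst) / 2 * f t = (∫ t in (0 : ℝ)..1, g t * f t) / 2 := by
      have e' : ∀ t, (g t - cst) / 2 * f t = g t * f t / 2 - cst / 2 * f t := fun t => by ring
      simp only [e']
      rw [intervalIntegral.integral_sub ((hf.continuousOn_mul hg.continuousOn).div_const 2)
        (hf.const_mul _), intervalIntegral.integral_div, intervalIntegral.integral_const_mul, hf0]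
      ring
    rw [e, abs_div, abs_two, div_le_iff₀ two_pos] at h'
    linarith
  have hpt : ∀ t, |f t| ≤ g t * f t + (2 * |f t - F t| + δ) := fun t => by
    have h1 : |F t| - δ ≤ g t * F t := by
      simp only [g]
      rcases le_total (F t / δ) 1 with h1 | h1
      · rw [min_eq_right h1]
        rcases le_total (-1) (F t / δ) with h2 | h2
        · rw [max_eq_right h2]
          rw [div_le_one hδ] at h1
          rw [le_div_iff₀ hδ] at h2
          have : |F t| ≤ δ := abs_le.2 ⟨by linarith, h1⟩
          have : 0 ≤ F t / δ * F t := by rw [div_mul_eq_mul_div]; exact div_nonneg (mul_self_nonneg _) hδ.le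
          linarith
        · rw [max_eq_left h2]
          rw [div_le_iff₀ hδ] at h2
          rw [abs_of_nonpos (by linarith)]
          linarith
      · rw [min_eq_left h1, max_eq_right (by norm_num)]
        rw [le_div_iff₀ hδ] at h1
        rw [abs_of_nonneg (by linarith)]
        linarith
    have h2 : g t * (F t - f t) ≤ |f t - F t| := by
      refine (le_abs_self _).trans ?_
      rw [abs_mul, abs_sub_comm]
      exact mul_le_of_le_one_left (abs_nonneg _) (hg1 t)
    have h3 : |f t| - |F t| ≤ |f t - F t| := abs_sub_abs_le_abs_sub _ _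
    linarith
  have hgfi : IntervalIntegrable (fun t => g t * f t) volume 0 1 :=
    hf.continuousOn_mul hg.continuousOn
  have hdi : IntervalIntegrable (fun t => 2 * |f t - F t| + δ) volume 0 1 :=
    ((hf.sub (hFc.intervalIntegrable _ _)).abs.const_mul 2).add intervalIntegrable_const
  refine (intervalIntegral.integral_mono_on zero_le_one hf.abs (hgfi.add hdi) fun t _ => hpt t).trans ?_
  rw [intervalIntegral.integral_add hgfi hdi, intervalIntegral.integral_add
    ((hf.sub (hFc.intervalIntegrable _ _)).abs.const_mul 2) intervalIntegrable_const,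
    intervalIntegral.integral_const_mul]
  have := (le_abs_self _).trans hgf
  simp
  linarith

/-- A cut costs what it should. -/
theorem stop_lower {V m η : ℝ} (hV : V ∈ Icc (13 / 50 : ℝ) (1 / 2)) {κ : ℝ}
    (hD : ∀ u : R3 → ℝ, Adm u → |vol u - V| < 1 / 200 → defect u ≤ κ →
      jrel (vol u) - m - η ≤ energy u)
    {v v' : R3 → ℝ} (hv' : Adm v') {τ D : ℝ} (hτ : τ < 1 / 400)
    (hdiff : |vol v' - vol v| ≤ D) (hDτ : D ≤ τ) (hvol : |vol v - V| < 1 / 400)
    (hdef : defect v' ≤ κ) :
    jrel V - m - η - 2 * |vol v - V| - 2 * D ≤ energy v' := by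
  have h : |vol v' - V| ≤ D + |vol v - V| := by
    have := abs_sub_le (vol v') (vol v) V
    linarith
  have h' := hD v' hv' (by linarith) hdef
  have := abs_le.1 h
  have hL := jrel_lipschitz (V := V) (W := vol v')
    ⟨le_trans (by norm_num) hV.1, le_trans hV.2 (by norm_num)⟩
    ⟨by linarith [hV.1], by linarith [hV.2]⟩
  linarith

/-- **Stationarity**: the first integrals along any minimising sequence, after a subsequence. -/
theorem firstIntegral (hVar : VariationSpec) (hStop : StopSpec) : FirstIntegralSpec := by
  intro V m w hV hD hw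
  obtain ⟨c₀, c₁, r, h0, h01, h2, hr, hslope, hlow⟩ := jrel_lower hV
  obtain ⟨σ, H, hσ, hH, hlin⟩ := exists_slope hVar h0 h01 h2 hr hlow hD hw
  set p := jrel V - m
  have hHb : 0 ≤ H ∧ H ≤ 2 := ⟨h0.trans hH.1, hH.2.trans h2⟩
  obtain ⟨P, hP⟩ := hw.energy_tendsto.bddAbove_range
  have hPn : ∀ n, energy (w n) ≤ P := fun n => hP ⟨n, rfl⟩
  set Cn : ℕ → Fin 3 → ℝ := fun n d =>
    (∫ t in (0 : ℝ)..1, stressAt (w (σ n)) d t) - H * vol (w (σ n))
  obtain ⟨C, -, θ, hθ, hC⟩ := (isCompact_univ_pi fun _ : Fin 3 =>
      isCompact_Icc (a := (-2 : ℝ)) (b := P)).tendsto_subseq (x := Cn) fun n d _ => by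
    have h1 := (hw.adm (σ n)).integral_stressAt_mem d
    have h3 := (hw.adm (σ n)).vol_mem
    exact ⟨by simp only [Cn]; nlinarith [h1.1, h3.2],
      by simp only [Cn]; nlinarith [h1.2, h3.1, hPn (σ n)]⟩
  rw [tendsto_pi_nhds] at hC
  have hστ : Tendsto (σ ∘ θ) atTop atTop := (hσ.comp hθ).tendsto_atTop
  have hw' : MinSeq V p fun n => w (σ (θ n)) :=
    ⟨fun n => hw.adm _, hw.vol_tendsto.comp hστ, hw.defect_tendsto.comp hστ,
      hw.energy_tendsto.comp hστ⟩
  refine ⟨σ ∘ θ, H, C, hσ.comp hθ, hslope H hH, hw', ?_, ?_, ?_, ?_⟩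
  · refine tendsto_nhds_unique (tendsto_finsetSum _ fun d _ => hC d) ?_
    have e : ∀ n, (∑ d, Cn (θ n) d) =
        2 * energy (w (σ (θ n))) - 3 * (H * vol (w (σ (θ n)))) := fun n => by
      simp only [Cn]
      rw [Finset.sum_sub_distrib, (hw.adm _).sum_integral_stressAt]
      simp
    simp only [Function.comp_apply, e]
    exact (hw'.energy_tendsto.const_mul 2).sub ((hw'.vol_tendsto.const_mul H).const_mul 3)
  · intro d
    rw [Metric.tendsto_atTop]
    intro η hη
    have hev : ∀ᶠ n in atTop,
        ∫ t in (0 : ℝ)..1, |stressAt (w (σ (θ n))) d t - (H * areaAt (w (σ (θ n))) d t + C d)| < η := by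
      filter_upwards [hθ.tendsto_atTop.eventually (hlin (η / 20) (by positivity)),
        (hC d).eventually (Metric.ball_mem_nhds _ (half_pos hη))] with n hn hCn
      set v := w (σ (θ n)) with hvdef
      have hv : Adm v := hw.adm _
      set f : ℝ → ℝ := fun t => stressAt v d t - (H * areaAt v d t + Cn (θ n) d)
      have hs := hv.intervalIntegrable_stressAt d 0 1
      have hA : IntervalIntegrable (fun t => H * areaAt v d t) volume 0 1 :=
        (continuous_const.mul (hv.continuous_areaAt d)).intervalIntegrable _ _
      have hfi : IntervalIntegrable f volume 0 1 := hs.sub (hA.add intervalIntegrable_const)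
      have hf0 : ∫ t in (0 : ℝ)..1, f t = 0 := by
        simp only [f]
        rw [intervalIntegral.integral_sub hs (hA.add intervalIntegrable_const),
          intervalIntegral.integral_add hA intervalIntegrable_const,
          intervalIntegral.integral_const_mul, hv.integral_areaAt]
        simp [Cn, ← hvdef]
      have key := integral_abs_le_of_test hfi hf0 (show 0 < η / 20 by positivity)
        fun g hg hg1 hgm => ?_
      · have hfa : IntervalIntegrable (fun t => |f t| + |Cn (θ n) d - C d|) volume 0 1 :=
          hfi.abs.add intervalIntegrable_const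
        refine lt_of_le_of_lt (intervalIntegral.integral_mono_on zero_le_one
          ((hs.sub (hA.add intervalIntegrable_const)).abs) hfa fun t _ => ?_) ?_
        · rw [show stressAt v d t - (H * areaAt v d t + C d) = f t + (Cn (θ n) d - C d) by
            simp only [f]; ring]
          exact abs_add_le _ _
        · rw [intervalIntegral.integral_add hfi.abs intervalIntegrable_const]
          rw [Function.comp_apply, Real.dist_eq] at hCn
          simp
          linarith
      · set G : Fin 3 → ℝ → ℝ := fun e t => if e = d then g t else 0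
        have hG : Test G := ⟨fun e => by by_cases h : e = d <;> simp [G, h, hg, continuous_const],
          fun e t => by by_cases h : e = d <;> simp [G, h, hg1 t],
          fun e => by by_cases h : e = d <;> simp [G, h, hgm]⟩
        have hGs : ∀ F : Fin 3 → ℝ → ℝ, (∑ e, ∫ t in (0 : ℝ)..1, G e t * F e t) =
            ∫ t in (0 : ℝ)..1, g t * F d t := fun F => by
          rw [Finset.sum_eq_single d (fun e _ he => by simp [G, he]) (by simp)]
          simp [G]
        have h' := hn G hG
        simp only [dEnergy, dVol, hGs] at h'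
        have hgA : IntervalIntegrable (fun t => g t * areaAt v d t) volume 0 1 :=
          (hg.mul (hv.continuous_areaAt d)).intervalIntegrable _ _
        have hgs : IntervalIntegrable (fun t => g t * stressAt v d t) volume 0 1 :=
          hs.continuousOn_mul hg.continuousOn
        have e : ∫ t in (0 : ℝ)..1, g t * f t = (∫ t in (0 : ℝ)..1, g t * stressAt v d t) -
            H * ∫ t in (0 : ℝ)..1, g t * areaAt v d t := by
          have e' : ∀ t, g t * f t =
              g t * stressAt v d t - (H * (g t * areaAt v d t) + g t * Cn (θ n) d) := fun t => by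
            simp only [f]; ring
          simp only [e']
          rw [intervalIntegral.integral_sub hgs ((hgA.const_mul H).add
              ((hg.intervalIntegrable _ _).mul_const _)),
            intervalIntegral.integral_add (hgA.const_mul H)
              ((hg.intervalIntegrable _ _).mul_const _),
            intervalIntegral.integral_const_mul, intervalIntegral.integral_mul_const, hgm]
          ring
        rw [e]
        exact h'
    obtain ⟨N, hN⟩ := eventually_atTop.1 hev
    refine ⟨N, fun n hn => ?_⟩
    rw [Real.dist_eq, sub_zero, abs_of_nonneg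
      (intervalIntegral.integral_nonneg zero_le_one fun t _ => abs_nonneg _)]
    exact hN n hn
  · intro d η hη
    obtain ⟨κ, hκ, hD'⟩ := hD (η / 4) (by positivity)
    refine ⟨κ / 2, half_pos hκ, ?_⟩
    filter_upwards [hw'.defect_tendsto.eventually (eventually_le_nhds (half_pos hκ)),
      hw'.vol_tendsto.eventually (Metric.ball_mem_nhds V (lt_min (show (0 : ℝ) < η / 16 by positivity)
        (show (0 : ℝ) < 1 / 400 by norm_num))),
      hw'.energy_tendsto.eventually (Metric.ball_mem_nhds p (show (0 : ℝ) < η / 4 by positivity))]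
      with n hdef hvol hen
    set v := w (σ (θ n))
    have hv : Adm v := hw.adm _
    show ∀ᵐ τ ∂(volume.restrict (Ioo (0 : ℝ) (1 / 400))), τ * defectAt v d (1 - τ) ≤ κ / 2 →
      ∫ t in (1 - τ)..1, energyAt v d t ≤ τ * perpAt v d (1 - τ) +
        2 * (∫ t in (1 - τ)..1, |areaAt v d t - areaAt v d (1 - τ)|) + η
    filter_upwards [ae_restrict_of_ae_restrict_of_subset (Ioo_subset_Ioo_right (by norm_num))
      (hStop v hv d), ae_restrict_mem measurableSet_Ioo] with τ hτ hτm hguard
    obtain ⟨v', hv', hE, hvd, hdd⟩ := hτ.1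
    rw [Real.dist_eq, lt_min_iff] at hvol
    rw [Real.dist_eq] at hen
    set D := ∫ t in (1 - τ)..1, |areaAt v d t - areaAt v d (1 - τ)|
    have hDτ : D ≤ τ := by
      have h := intervalIntegral.norm_integral_le_of_norm_le_const (a := 1 - τ) (b := 1) (C := 1)
        (f := fun t => |areaAt v d t - areaAt v d (1 - τ)|) fun t _ => by
          rw [Real.norm_eq_abs, abs_abs, abs_le]
          have := hv.areaAt_mem d t
          have := hv.areaAt_mem d (1 - τ)
          exact ⟨by linarith [this.2, (hv.areaAt_mem d t).1], by linarith [this.1, (hv.areaAt_mem d t).2]⟩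
      rw [Real.norm_eq_abs, one_mul, sub_sub_cancel, abs_of_pos hτm.1] at h
      exact (le_abs_self _).trans h
    have hlb := stop_lower hV hD' hv' hτm.2 hvd hDτ hvol.2 (by linarith)
    have hsplit := intervalIntegral.integral_add_adjacent_intervals
      (hv.intervalIntegrable_energyAt d 0 (1 - τ)) (hv.intervalIntegrable_energyAt d (1 - τ) 1)
    rw [hv.integral_energyAt d] at hsplit
    have hp : p = jrel V - m := rfl
    linarith [(abs_lt.1 hen).2]
  · intro d η hη
    obtain ⟨κ, hκ, hD'⟩ := hD (η / 4) (by positivity)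
    refine ⟨κ / 2, half_pos hκ, ?_⟩
    filter_upwards [hw'.defect_tendsto.eventually (eventually_le_nhds (half_pos hκ)),
      hw'.vol_tendsto.eventually (Metric.ball_mem_nhds V (lt_min (show (0 : ℝ) < η / 16 by positivity)
        (show (0 : ℝ) < 1 / 400 by norm_num))),
      hw'.energy_tendsto.eventually (Metric.ball_mem_nhds p (show (0 : ℝ) < η / 4 by positivity))]
      with n hdef hvol hen
    set v := w (σ (θ n))
    have hv : Adm v := hw.adm _
    show ∀ᵐ τ ∂(volume.restrict (Ioo (0 : ℝ) (1 / 400))), τ * defectAt v d τ ≤ κ / 2 →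
      ∫ t in (0 : ℝ)..τ, energyAt v d t ≤ τ * perpAt v d τ +
        2 * (∫ t in (0 : ℝ)..τ, |areaAt v d t - areaAt v d τ|) + η
    filter_upwards [ae_restrict_of_ae_restrict_of_subset (Ioo_subset_Ioo_right (by norm_num))
      (hStop v hv d), ae_restrict_mem measurableSet_Ioo] with τ hτ hτm hguard
    obtain ⟨v', hv', hE, hvd, hdd⟩ := hτ.2
    rw [Real.dist_eq, lt_min_iff] at hvol
    rw [Real.dist_eq] at hen
    set D := ∫ t in (0 : ℝ)..τ, |areaAt v d t - areaAt v d τ|
    have hDτ : D ≤ τ := by
      have h := intervalIntegral.norm_integral_le_of_norm_le_const (a := (0 : ℝ)) (b := τ) (C := 1)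
        (f := fun t => |areaAt v d t - areaAt v d τ|) fun t _ => by
          rw [Real.norm_eq_abs, abs_abs, abs_le]
          have := hv.areaAt_mem d τ
          exact ⟨by linarith [this.2, (hv.areaAt_mem d t).1], by linarith [this.1, (hv.areaAt_mem d t).2]⟩
      rw [Real.norm_eq_abs, one_mul, sub_zero, abs_of_pos hτm.1] at h
      exact (le_abs_self _).trans h
    have hlb := stop_lower hV hD' hv' hτm.2 hvd hDτ hvol.2 (by linarith)
    have hsplit := intervalIntegral.integral_add_adjacent_intervals
      (hv.intervalIntegrable_energyAt d 0 τ) (hv.intervalIntegrable_energyAt d τ 1)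
    rw [hv.integral_energyAt d] at hsplit
    have hp : p = jrel V - m := rfl
    linarith [(abs_lt.1 hen).2]

end Vale.Agent.P232.Gap
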