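import Vale.Agent.P232.Gap.Build.Basic

/-!
# P232 gap: the first variation as a linear bound, and the common slope
-/

open MeasureTheory Set Filter
open scoped NNReal Real Topology

noncomputable section

namespace Vale.Agent.P232.Gap

/-- Admissible test triples. -/
structure Test (g : Fin 3 → ℝ → ℝ) : Prop where
  cont : ∀ d, Continuous (g d)
  bound : ∀ d t, |g d t| ≤ 1
  mean : ∀ d, ∫ t in (0 : ℝ)..1, g d t = 0

/-- First variation of the energy. -/
def dEnergy (w : R3 → ℝ) (g : Fin 3 → ℝ → ℝ) : ℝ :=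
  ∑ d, ∫ t in (0 : ℝ)..1, g d t * stressAt w d t

/-- First variation of the volume. -/
def dVol (w : R3 → ℝ) (g : Fin 3 → ℝ → ℝ) : ℝ :=
  ∑ d, ∫ t in (0 : ℝ)..1, g d t * areaAt w d t

theorem abs_integral_mul_le {g f : ℝ → ℝ} {K : ℝ} (hg : ∀ t, |g t| ≤ 1) (hf : ∀ t, |f t| ≤ K) :
    |∫ t in (0 : ℝ)..1, g t * f t| ≤ K := by
  have h := intervalIntegral.norm_integral_le_of_norm_le_const (a := (0 : ℝ)) (b := 1) (C := K)
    (f := fun t => g t * f t) fun t _ => by
      rw [Real.norm_eq_abs, abs_mul]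
      exact (mul_le_of_le_one_left (abs_nonneg _) (hg t)).trans (hf t)
  rwa [Real.norm_eq_abs, sub_zero, abs_one, mul_one] at h

theorem abs_dVol_le {w : R3 → ℝ} (hw : Adm w) {g : Fin 3 → ℝ → ℝ} (hg : ∀ d t, |g d t| ≤ 1) :
    |dVol w g| ≤ 3 := by
  refine (Finset.abs_sum_le_sum_abs _ _).trans
    ((Finset.sum_le_sum fun d _ => abs_integral_mul_le (K := 1) (hg d) fun t => ?_).trans
      (le_of_eq (by simp)))
  exact Rigid.abs_le_one_of_mem (hw.areaAt_mem d t)

theorem Test.neg {g : Fin 3 → ℝ → ℝ} (hg : Test g) : Test fun d t => -g d t :=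
  ⟨fun d => (hg.cont d).neg, fun d t => by rw [abs_neg]; exact hg.bound d t, fun d => by
    rw [intervalIntegral.integral_neg, hg.mean d, neg_zero]⟩

theorem dEnergy_neg (w : R3 → ℝ) (g : Fin 3 → ℝ → ℝ) :
    dEnergy w (fun d t => -g d t) = -dEnergy w g := by
  simp only [dEnergy, neg_mul, intervalIntegral.integral_neg, Finset.sum_neg_distrib]

theorem dVol_neg (w : R3 → ℝ) (g : Fin 3 → ℝ → ℝ) :
    dVol w (fun d t => -g d t) = -dVol w g := by
  simp only [dVol, neg_mul, intervalIntegral.integral_neg, Finset.sum_neg_distrib]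

theorem min_slope_scale {c₀ c₁ x ε : ℝ} (h0 : 0 ≤ c₀) (h01 : c₀ ≤ c₁) (h2 : c₁ ≤ 2)
    (hε : 0 ≤ ε) {y : ℝ} : ε * min (c₀ * x) (c₁ * x) - 2 * |y - ε * x| ≤ min (c₀ * y) (c₁ * y) := by
  have key : ∀ c, 0 ≤ c → c ≤ 2 → c * (ε * x) - 2 * |y - ε * x| ≤ c * y := fun c hc hc2 => by
    have h1 : c * (ε * x - y) ≤ c * |y - ε * x| :=
      mul_le_mul_of_nonneg_left (by rw [abs_sub_comm]; exact le_abs_self _) hc
    have h3 : c * |y - ε * x| ≤ 2 * |y - ε * x| := mul_le_mul_of_nonneg_right hc2 (abs_nonneg _)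
    linarith
  rw [mul_min_of_nonneg _ _ hε, ← mul_left_comm c₀ ε x, ← mul_left_comm c₁ ε x]
  refine le_min ?_ ?_
  · linarith [key c₀ h0 (h01.trans h2), min_le_left (c₀ * (ε * x)) (c₁ * (ε * x))]
  · linarith [key c₁ (h0.trans h01) h2, min_le_right (c₀ * (ε * x)) (c₁ * (ε * x))]

/-- The first variation is bounded below by the one-sided slopes, uniformly in the test triple. -/
theorem dEnergy_lower (hVar : VariationSpec) {V m c₀ c₁ r : ℝ} (h0 : 0 ≤ c₀) (h01 : c₀ ≤ c₁)
    (h2 : c₁ ≤ 2) (hr : 0 < r)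
    (hlow : ∀ W, |W - V| < r →
      jrel V + min (c₀ * (W - V)) (c₁ * (W - V)) - 16 * (W - V) ^ 2 ≤ jrel W)
    (hD : Deficit V m) {w : ℕ → R3 → ℝ} (hw : MinSeq V (jrel V - m) w) {δ : ℝ} (hδ : 0 < δ) :
    ∀ᶠ n in atTop, ∀ g, Test g →
      min (c₀ * dVol (w n) g) (c₁ * dVol (w n) g) - δ ≤ dEnergy (w n) g := by
  set p := jrel V - m
  set M := max p 0 + 1
  have hM : 0 < M := by positivity
  set ρ := min r (1 / 200) with hρdef
  have hρ : 0 < ρ := lt_min hr (by norm_num)
  set ε := min (min (1 / 8) (ρ / 50)) (δ / (4 * (20 * M + 1000)))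
  have hε : 0 < ε := lt_min (lt_min (by norm_num) (by positivity)) (by positivity)
  have hε8 : ε ≤ 1 / 8 := (min_le_left _ _).trans (min_le_left _ _)
  have hερ : 50 * ε ≤ ρ := by
    have : ε ≤ ρ / 50 := (min_le_left _ _).trans (min_le_right _ _)
    linarith
  have hεδ : 4 * (20 * M + 1000) * ε ≤ δ := by
    have : ε ≤ δ / (4 * (20 * M + 1000)) := min_le_right _ _
    rw [le_div_iff₀ (by positivity)] at this
    linarith
  set θ := ε * δ / 16 with hθdef
  have hθ : 0 < θ := by positivity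
  obtain ⟨κ, hκ, hD⟩ := hD θ hθ
  filter_upwards [hw.vol_tendsto.eventually (Metric.ball_mem_nhds V (lt_min hθ hε)),
    hw.defect_tendsto.eventually (eventually_le_nhds (by positivity : (0 : ℝ) < κ / 2)),
    hw.energy_tendsto.eventually (Metric.ball_mem_nhds p (lt_min hθ one_pos))]
    with n hvol hdef hen g hg
  rw [Real.dist_eq, lt_min_iff] at hvol hen
  obtain ⟨w', hadm, hE, hV', hdef'⟩ :=
    hVar (w n) (hw.adm n) g hg.cont hg.bound hg.mean ε (by rwa [abs_of_pos hε])
  have hE' : energy w' ≤ energy (w n) + ε * dEnergy (w n) g + 20 * ε ^ 2 * energy (w n) := hE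
  set L := dVol (w n) g with hLdef
  set y := vol w' - V with hy
  have hV'' : |vol w' - vol (w n) - ε * L| ≤ 20 * ε ^ 2 := hV'
  have hL : |L| ≤ 3 := abs_dVol_le (hw.adm n) hg.bound
  have hε2 : 20 * ε ^ 2 ≤ 3 * ε := by nlinarith
  have hyL : |y - ε * L| ≤ θ + 20 * ε ^ 2 := by
    calc |y - ε * L| = |(vol w' - vol (w n) - ε * L) + (vol (w n) - V)| := by congr 1; ring
      _ ≤ _ := (abs_add_le _ _).trans (by linarith [hvol.1])
  have hy7 : |y| ≤ 7 * ε := by
    calc |y| = |(vol w' - vol (w n) - ε * L) + (vol (w n) - V) + ε * L| := by congr 1; ring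
      _ ≤ |vol w' - vol (w n) - ε * L| + |vol (w n) - V| + |ε * L| :=
          (abs_add_le _ _).trans (add_le_add_left (abs_add_le _ _) _)
      _ ≤ 7 * ε := by
          rw [abs_mul, abs_of_pos hε]
          nlinarith [hvol.2]
  have hyρ : |vol w' - V| < ρ := lt_of_le_of_lt hy7 (by linarith)
  have hlb := hD w' hadm (hyρ.trans_le (min_le_right _ _)) (by linarith)
  have hj := hlow (vol w') (hyρ.trans_le (min_le_left _ _))
  have hs := min_slope_scale (x := L) (y := y) h0 h01 h2 hε.le
  have hy2 : y ^ 2 ≤ 49 * ε ^ 2 := by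
    rw [← sq_abs y]
    nlinarith [abs_nonneg y]
  have hp1 : energy (w n) ≤ M := by linarith [(abs_lt.1 hen.2).2, le_max_left p 0]
  have hp2 : energy (w n) ≤ p + θ := by linarith [(abs_lt.1 hen.1).2]
  have hEM : 20 * ε ^ 2 * energy (w n) ≤ 20 * ε ^ 2 * M :=
    mul_le_mul_of_nonneg_left hp1 (by positivity)
  have hsum : ε * min (c₀ * L) (c₁ * L) ≤ ε * dEnergy (w n) g + 4 * θ +
      (20 * M + 1000) * ε ^ 2 := by
    have hp : p = jrel V - m := rfl
    simp only [← hy] at hj
    linarith [sq_nonneg ε]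
  have hfin : 4 * θ + (20 * M + 1000) * ε ^ 2 ≤ ε * δ := by
    have h := mul_le_mul_of_nonneg_left hεδ hε.le
    linarith
  refine le_of_mul_le_mul_left ?_ hε
  linarith

/-- Both signs. -/
theorem dEnergy_two_sided (hVar : VariationSpec) {V m c₀ c₁ r : ℝ} (h0 : 0 ≤ c₀) (h01 : c₀ ≤ c₁)
    (h2 : c₁ ≤ 2) (hr : 0 < r)
    (hlow : ∀ W, |W - V| < r →
      jrel V + min (c₀ * (W - V)) (c₁ * (W - V)) - 16 * (W - V) ^ 2 ≤ jrel W)
    (hD : Deficit V m) {w : ℕ → R3 → ℝ} (hw : MinSeq V (jrel V - m) w) {δ : ℝ} (hδ : 0 < δ) :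
    ∀ᶠ n in atTop, ∀ g, Test g →
      min (c₀ * dVol (w n) g) (c₁ * dVol (w n) g) - δ ≤ dEnergy (w n) g ∧
      dEnergy (w n) g ≤ max (c₀ * dVol (w n) g) (c₁ * dVol (w n) g) + δ := by
  filter_upwards [dEnergy_lower hVar h0 h01 h2 hr hlow hD hw hδ] with n hn g hg
  refine ⟨hn g hg, ?_⟩
  have h := hn _ hg.neg
  rw [dEnergy_neg, dVol_neg, mul_neg, mul_neg, min_neg_neg] at h
  linarith

/-- The spread of the slice areas about their mean. -/
def spread (w : R3 → ℝ) : ℝ := ∑ d, ∫ t in (0 : ℝ)..1, (areaAt w d t - vol w) ^ 2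

theorem Adm.vol_mem {w : R3 → ℝ} (hw : Adm w) : vol w ∈ Icc (0 : ℝ) 1 := by
  rw [← hw.integral_areaAt 0]
  refine ⟨intervalIntegral.integral_nonneg zero_le_one fun t _ => (hw.areaAt_mem 0 t).1, ?_⟩
  simpa using intervalIntegral.integral_mono_on (μ := volume) (g := fun _ : ℝ => (1 : ℝ))
    zero_le_one ((hw.continuous_areaAt 0).intervalIntegrable 0 1) intervalIntegrable_const
    (fun t _ => (hw.areaAt_mem 0 t).2)

theorem test_spread {w : R3 → ℝ} (hw : Adm w) : Test fun d t => areaAt w d t - vol w := by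
  have hv := hw.vol_mem
  refine ⟨fun d => (hw.continuous_areaAt d).sub continuous_const, fun d t => ?_, fun d => ?_⟩
  · have := hw.areaAt_mem d t
    rw [abs_le]
    exact ⟨by linarith [this.1, hv.2], by linarith [this.2, hv.1]⟩
  · rw [intervalIntegral.integral_sub ((hw.continuous_areaAt d).intervalIntegrable _ _)
      intervalIntegrable_const, hw.integral_areaAt d]
    simp

theorem dVol_eq {w : R3 → ℝ} (hw : Adm w) {g : Fin 3 → ℝ → ℝ} (hg : Test g) :
    dVol w g = ∑ d, ∫ t in (0 : ℝ)..1, g d t * (areaAt w d t - vol w) := by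
  refine Finset.sum_congr rfl fun d _ => ?_
  simp only [mul_sub]
  have e1 : IntervalIntegrable (fun t => g d t * areaAt w d t) volume 0 1 :=
    ((hg.cont d).mul (hw.continuous_areaAt d)).intervalIntegrable _ _
  have e2 : IntervalIntegrable (fun t => g d t * vol w) volume 0 1 :=
    ((hg.cont d).mul continuous_const).intervalIntegrable _ _
  rw [intervalIntegral.integral_sub e1 e2, intervalIntegral.integral_mul_const,
    hg.mean d, zero_mul, sub_zero]

theorem dVol_spread {w : R3 → ℝ} (hw : Adm w) :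
    dVol w (fun d t => areaAt w d t - vol w) = spread w := by
  rw [dVol_eq hw (test_spread hw)]
  simp only [spread, ← sq]

theorem spread_le {w : R3 → ℝ} (hw : Adm w) : 0 ≤ spread w ∧ spread w ≤ 3 := by
  refine ⟨Finset.sum_nonneg fun d _ =>
    intervalIntegral.integral_nonneg zero_le_one fun t _ => sq_nonneg _, ?_⟩
  rw [← dVol_spread hw]
  exact (le_abs_self _).trans (abs_dVol_le hw (test_spread hw).bound)

theorem abs_dVol_le_spread {w : R3 → ℝ} (hw : Adm w) {g : Fin 3 → ℝ → ℝ} (hg : Test g) {s : ℝ}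
    (hs : 0 < s) : |dVol w g| ≤ spread w / (2 * s) + 3 * (s / 2) := by
  rw [dVol_eq hw hg]
  refine (Finset.abs_sum_le_sum_abs _ _).trans ?_
  rw [spread, Finset.sum_div, show (3 : ℝ) * (s / 2) = ∑ _d : Fin 3, s / 2 by simp,
    ← Finset.sum_add_distrib]
  refine Finset.sum_le_sum fun d _ => ?_
  have hf : Continuous fun t => g d t * (areaAt w d t - vol w) :=
    (hg.cont d).mul ((hw.continuous_areaAt d).sub continuous_const)
  have hq : Continuous fun t => (areaAt w d t - vol w) ^ 2 :=
    ((hw.continuous_areaAt d).sub continuous_const).pow 2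
  refine (intervalIntegral.abs_integral_le_integral_abs zero_le_one).trans ?_
  refine (intervalIntegral.integral_mono_on zero_le_one (hf.abs.intervalIntegrable _ _)
    (((hq.div_const (2 * s)).add continuous_const).intervalIntegrable _ _) fun t _ => ?_).trans
    (le_of_eq ?_) (b := ∫ t in (0 : ℝ)..1, ((areaAt w d t - vol w) ^ 2 / (2 * s) + s / 2))
  · rw [abs_mul]
    refine (mul_le_of_le_one_left (abs_nonneg _) (hg.bound d t)).trans ?_
    show _ ≤ (areaAt w d t - vol w) ^ 2 / (2 * s) + s / 2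
    rw [div_add_div _ _ (by positivity) two_ne_zero, le_div_iff₀ (by positivity)]
    nlinarith [sq_nonneg (|areaAt w d t - vol w| - s), sq_abs (areaAt w d t - vol w)]
  · rw [intervalIntegral.integral_add ((hq.div_const _).intervalIntegrable _ _)
      intervalIntegrable_const, intervalIntegral.integral_div]
    simp

/-- A slope common to the three axes, along a subsequence. -/
theorem exists_slope (hVar : VariationSpec) {V m c₀ c₁ r : ℝ} (h0 : 0 ≤ c₀) (h01 : c₀ ≤ c₁)
    (h2 : c₁ ≤ 2) (hr : 0 < r)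
    (hlow : ∀ W, |W - V| < r →
      jrel V + min (c₀ * (W - V)) (c₁ * (W - V)) - 16 * (W - V) ^ 2 ≤ jrel W)
    (hD : Deficit V m) {w : ℕ → R3 → ℝ} (hw : MinSeq V (jrel V - m) w) :
    ∃ (σ : ℕ → ℕ) (H : ℝ), StrictMono σ ∧ H ∈ Icc c₀ c₁ ∧ ∀ δ : ℝ, 0 < δ →
      ∀ᶠ n in atTop, ∀ g, Test g → |dEnergy (w (σ n)) g - H * dVol (w (σ n)) g| ≤ δ := by
  have hT := fun {δ : ℝ} (hδ : 0 < δ) => dEnergy_two_sided hVar h0 h01 h2 hr hlow hD hw hδ
  by_cases hA : ∀ k : ℕ, ∃ᶠ n in atTop, spread (w n) < 1 / ((k : ℝ) + 1)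
  · obtain ⟨σ, hσ, hσs⟩ := extraction_forall_of_frequently hA
    refine ⟨σ, c₀, hσ, left_mem_Icc.2 h01, fun δ hδ => ?_⟩
    have hs : 0 < δ / 20 := by positivity
    have hlim : ∀ᶠ n : ℕ in atTop, 1 / ((n : ℝ) + 1) < (δ / 20) ^ 2 :=
      (tendsto_one_div_add_atTop_nhds_zero_nat).eventually (eventually_lt_nhds (by positivity))
    filter_upwards [hσ.tendsto_atTop.eventually (hT (half_pos hδ)), hlim] with n hn hn' g hg
    obtain ⟨h1, h3⟩ := hn g hg
    have hb := abs_dVol_le_spread (hw.adm (σ n)) hg hs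
    set L := dVol (w (σ n)) g
    have hL : |L| ≤ δ / 10 := by
      refine hb.trans ?_
      have : spread (w (σ n)) / (2 * (δ / 20)) ≤ (δ / 20) / 2 := by
        rw [div_le_iff₀ (by positivity)]
        calc spread (w (σ n)) ≤ (δ / 20) ^ 2 := (hσs n).le.trans hn'.le
          _ = _ := by ring
      linarith
    have hc : ∀ c, 0 ≤ c → c ≤ 2 → |c * L| ≤ δ / 5 := fun c hc hc2 => by
      rw [abs_mul, abs_of_nonneg hc]
      nlinarith [abs_nonneg L]
    obtain ⟨a1, a2⟩ := abs_le.1 (hc c₀ h0 (h01.trans h2))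
    obtain ⟨b1, b2⟩ := abs_le.1 (hc c₁ (h0.trans h01) h2)
    rw [abs_le]
    constructor
    · have : -(δ / 5) ≤ min (c₀ * L) (c₁ * L) := le_min a1 b1
      linarith
    · have : max (c₀ * L) (c₁ * L) ≤ δ / 5 := max_le a2 b2
      linarith
  · obtain ⟨k, hk⟩ := not_forall.1 hA
    rw [not_frequently] at hk
    set lam : ℝ := 1 / ((k : ℝ) + 1)
    have hlam : 0 < lam := by positivity
    set Hn : ℕ → ℝ := fun n => max c₀ (min c₁
      (dEnergy (w n) (fun d t => areaAt (w n) d t - vol (w n)) / spread (w n)))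
    obtain ⟨H, hH, σ, hσ, hlimH⟩ := isCompact_Icc.tendsto_subseq (s := Icc c₀ c₁) (x := Hn)
      fun n => ⟨le_max_left _ _, max_le h01 (min_le_left _ _)⟩
    refine ⟨σ, H, hσ, hH, fun δ hδ => ?_⟩
    set δ' := δ / (4 * (1 + 6 / lam)) with hδ'
    have hδ'0 : 0 < δ' := by positivity
    have hHev : ∀ᶠ n in atTop, |Hn (σ n) - H| ≤ δ / 12 := by
      filter_upwards [hlimH.eventually (Metric.closedBall_mem_nhds H (show 0 < δ / 12 by positivity))]
        with n hn
      simpa [Real.dist_eq] using hn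
    filter_upwards [hσ.tendsto_atTop.eventually (hT hδ'0), hσ.tendsto_atTop.eventually hk, hHev]
      with n hn hk hHn g hg
    set v := w (σ n)
    have hv : Adm v := hw.adm (σ n)
    set gs : Fin 3 → ℝ → ℝ := fun d t => areaAt v d t - vol v with hgs
    set S := spread v
    have hS : lam ≤ S := not_lt.1 hk
    have hS0 : 0 < S := hlam.trans_le hS
    have hS3 : S ≤ 3 := (spread_le hv).2
    set R := dEnergy v gs
    set L := dVol v g
    have hL : |L| ≤ 3 := abs_dVol_le hv hg.bound
    have hRH : |R - Hn (σ n) * S| ≤ δ' := by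
      obtain ⟨r1, r2⟩ := hn gs (test_spread hv)
      rw [dVol_spread hv] at r1 r2
      rw [min_eq_left (by nlinarith)] at r1
      rw [max_eq_right (by nlinarith)] at r2
      show |R - max c₀ (min c₁ (R / S)) * S| ≤ δ'
      have e : R / S * S = R := div_mul_cancel₀ R hS0.ne'
      rw [abs_le]
      rcases le_total (R / S) c₁ with q1 | q1
      · rw [min_eq_right q1]
        rcases le_total c₀ (R / S) with q0 | q0
        · rw [max_eq_right q0, e]; exact ⟨by linarith, by linarith⟩
        · rw [max_eq_left q0]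
          have := mul_le_mul_of_nonneg_right q0 hS0.le
          constructor <;> linarith
      · rw [min_eq_left q1, max_eq_right h01]
        have := mul_le_mul_of_nonneg_right q1 hS0.le
        constructor <;> linarith
    set a := L / S
    set q := 1 + |a|
    have hq0 : 0 < q := by positivity
    set g' : Fin 3 → ℝ → ℝ := fun d t => (g d t - a * gs d t) / q
    have hg' : Test g' := by
      refine ⟨fun d => ((hg.cont d).sub (continuous_const.mul ((test_spread hv).cont d))).div_const _,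
        fun d t => ?_, fun d => ?_⟩
      · simp only [g']
        rw [abs_div, abs_of_pos hq0, div_le_one hq0]
        refine (abs_sub _ _).trans (add_le_add (hg.bound d t) ?_)
        rw [abs_mul]
        exact mul_le_of_le_one_right (abs_nonneg _) ((test_spread hv).bound d t)
      · simp only [g', intervalIntegral.integral_div]
        have e2 : IntervalIntegrable (fun t => a * gs d t) volume 0 1 :=
          (continuous_const.mul ((test_spread hv).cont d)).intervalIntegrable _ _
        rw [intervalIntegral.integral_sub ((hg.cont d).intervalIntegrable _ _) e2,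
          intervalIntegral.integral_const_mul, (test_spread hv).mean d, hg.mean d]
        simp
    have comb : ∀ f : Fin 3 → ℝ → ℝ, (∀ d, IntervalIntegrable (f d) volume 0 1) →
        (∑ d, ∫ t in (0 : ℝ)..1, g' d t * f d t) =
          ((∑ d, ∫ t in (0 : ℝ)..1, g d t * f d t) -
            a * ∑ d, ∫ t in (0 : ℝ)..1, gs d t * f d t) / q := by
      intro f hf
      rw [Finset.mul_sum, ← Finset.sum_sub_distrib, Finset.sum_div]
      refine Finset.sum_congr rfl fun d _ => ?_
      rw [← intervalIntegral.integral_const_mul, ← intervalIntegral.integral_sub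
        ((hf d).continuousOn_mul (hg.cont d).continuousOn)
        (((hf d).continuousOn_mul ((test_spread hv).cont d).continuousOn).const_mul a),
        ← intervalIntegral.integral_div]
      refine intervalIntegral.integral_congr fun t _ => ?_
      simp only [g']
      ring
    have hEg : dEnergy v g' = (dEnergy v g - a * R) / q :=
      comb (fun d => stressAt v d) fun d => hv.intervalIntegrable_stressAt d 0 1
    have hVg : dVol v g' = 0 := by
      have := comb (fun d => areaAt v d) fun d => (hv.continuous_areaAt d).intervalIntegrable 0 1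
      show dVol v g' = 0
      rw [show dVol v g' = (L - a * dVol v gs) / q from this, dVol_spread hv]
      rw [show a * S = L from div_mul_cancel₀ L hS0.ne', sub_self, zero_div]
    have hmid : |dEnergy v g - a * R| ≤ δ' * q := by
      obtain ⟨r1, r2⟩ := hn g' hg'
      rw [hVg, mul_zero, mul_zero, min_self, zero_sub] at r1
      rw [hVg, mul_zero, mul_zero, max_self, zero_add] at r2
      rw [hEg] at r1 r2
      have h := abs_le.2 ⟨r1, r2⟩
      rwa [abs_div, abs_of_pos hq0, div_le_iff₀ hq0] at h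
    have ha : |a| ≤ 3 / lam := by
      rw [abs_div, abs_of_pos hS0]
      exact div_le_div₀ (by norm_num) hL hlam hS
    have e : dEnergy v g - H * L =
        (dEnergy v g - a * R) + a * (R - Hn (σ n) * S) + (Hn (σ n) - H) * L := by
      rw [← show a * S = L from div_mul_cancel₀ L hS0.ne']
      ring
    show |dEnergy v g - H * L| ≤ δ
    rw [e]
    refine ((abs_add_le _ _).trans (add_le_add_left (abs_add_le _ _) _)).trans ?_
    rw [abs_mul, abs_mul]
    have t1 : δ' * q ≤ δ' * (1 + 3 / lam) := mul_le_mul_of_nonneg_left (by linarith) hδ'0.le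
    have t2 : |a| * |R - Hn (σ n) * S| ≤ 3 / lam * δ' :=
      mul_le_mul ha hRH (abs_nonneg _) (by positivity)
    have t3 : |Hn (σ n) - H| * |L| ≤ δ / 12 * 3 :=
      mul_le_mul hHn hL (abs_nonneg _) (by positivity)
    have t4 : δ' * (1 + 6 / lam) = δ / 4 := by rw [hδ']; field_simp
    have t5 : δ' * (1 + 3 / lam) + 3 / lam * δ' = δ' * (1 + 6 / lam) := by ring
    linarith

end Vale.Agent.P232.Gap
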